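import Vale.Agent.P235.Hub.Defs
import Vale.Agent.P235.H206.Final

/-!
P235, line HUB (helper15), row [EXIT] (helper45): the main statement in the letters of the hand-ins
(`EdgeIso` instead of `EdgeExact`), with a short constant.
-/

namespace Vale.Agent.P235.Hub.H45

open Vale.Agent.P235 Vale.Agent.P235.Hub

/-- **[EXIT]**, any class of pieces with `EdgeIso`. -/
theorem exit_iso (hM : MainStmt) : ∃ A : ℝ, 1 ≤ A ∧
    ∀ (P : ∀ V : Type, SimpleGraph V → Prop) (D C : ℝ) (k : ℕ), 1 ≤ D → 1 ≤ C →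
      (∀ (V : Type) [Finite V] (G : SimpleGraph V), G.Connected → P V G → EdgeIso G D) →
      ∀ (V : Type) [Finite V] (G H : SimpleGraph V) (E : V → V → Prop), HubSum P C k H E →
        G ≤ H → G.Connected → DistortionLE G (A * C * (D + (k + 1) * C)) := by
  refine ⟨29952000 * 5 * 3200, by norm_num, fun P D C k hD hC hP V _ G H E hH hle hG => ?_⟩
  have hD0 : 0 < D := by linarith
  have h1 : 0 < 1 / D := by positivity
  have h2 : 1 / D ≤ 1 := by rw [div_le_one hD0]; exact hD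
  have h := hM P (1 / D) C k h1 h2 hC
    (fun V _ G hG => EdgeIso.edgeExact hD0 fun hc => hP V G hc hG) V G H E hH hle hG
  refine h.mono ?_
  rw [one_div_one_div]
  have hk : (0 : ℝ) ≤ k := Nat.cast_nonneg k
  have h3 : 2 * C + 3 ≤ 5 * C := by linarith
  have h4 : 640 * ((k : ℝ) + 1) * (2 * C + 3) ≤ 3200 * (((k : ℝ) + 1) * C) := by
    have h5 := mul_le_mul_of_nonneg_left h3 (by positivity : (0 : ℝ) ≤ 640 * ((k : ℝ) + 1))
    calc 640 * ((k : ℝ) + 1) * (2 * C + 3) ≤ 640 * ((k : ℝ) + 1) * (5 * C) := h5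
      _ = _ := by ring
  have h6 : D + 640 * ((k : ℝ) + 1) * (2 * C + 3) ≤ 3200 * (D + ((k : ℝ) + 1) * C) := by
    have h7 : D ≤ 3200 * D := by linarith
    linarith
  have h8 : 0 ≤ D + 640 * ((k : ℝ) + 1) * (2 * C + 3) := by positivity
  calc 29952000 * (2 * C + 3) * (D + 640 * ((k : ℝ) + 1) * (2 * C + 3))
      ≤ 29952000 * (5 * C) * (3200 * (D + ((k : ℝ) + 1) * C)) := by
        apply mul_le_mul (by linarith) h6 h8 (by positivity)
    _ = _ := by ring

end Vale.Agent.P235.Hub.H45
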