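import Vale.Agent.P235.Hub.H45.Exit
import Vale.Agent.P235.H56.Bound3
import Vale.Agent.P235.H830.Final
import Vale.Agent.P235.H638.MonoQ
import Vale.Agent.P235.H12.Plug

/-!
P235, line HUB (helper15), row [EXIT] (helper45): the corollaries for concrete classes of pieces.
-/

namespace Vale.Agent.P235.Hub

open Vale.Agent.P235 Vale.Agent.P235.H134 Vale.Agent.P235.H56

/-- every `3`-connected minor of `G` is planar, or has treewidth at most `3`, or has pathwidth or
shortest path depth at most `w` up to `t` deleted vertices; or `G` has no `K_{3,3}` minor -/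
def Tame (w t : ℕ) (V : Type) (G : SimpleGraph V) : Prop :=
  (∀ (W : Type) [Finite W] (H : SimpleGraph W), H.Connected → Conn3 H → IsMinor H G →
    ST.H626.PlanePiece w t W H) ∨ ¬ IsMinor (completeBipartiteGraph (Fin 3) (Fin 3)) G

namespace H45

/-- **[EXIT]**, absolute constant. -/
theorem exit_tame (hM : MainStmt) : ∃ A : ℝ, 1 ≤ A ∧
    ∀ (w t k : ℕ) (C : ℝ), 1 ≤ C →
      ∀ (V : Type) [Finite V] (G H : SimpleGraph V) (E : V → V → Prop),
        HubSum (Tame w t) C k H E → G ≤ H → G.Connected →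
          DistortionLE G (A * C * (w + Real.log (t + 2) + (k + 1) * C)) := by
  obtain ⟨A, hA, h⟩ := exit_iso hM
  obtain ⟨C0, hC0, h1, -, h3, -⟩ := H56.main5 H830.sPrime H638.monoQ H12.allStar
  have hA0 : 0 < A := by linarith
  have hC00 : 0 < C0 := by linarith
  refine ⟨A * (2 * C0), by nlinarith, fun w t k C hC V _ G H E hH hle hG => ?_⟩
  have hw : (0 : ℝ) ≤ w := Nat.cast_nonneg w
  have ht : (0 : ℝ) ≤ t := Nat.cast_nonneg t
  have hk : (0 : ℝ) ≤ k := Nat.cast_nonneg k
  have hl2 : (1 : ℝ) / 2 ≤ Real.log 2 := by have := Real.log_two_gt_d9; linarith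
  have hlog : (1 : ℝ) / 2 ≤ Real.log ((t : ℝ) + 2) :=
    hl2.trans (Real.log_le_log (by norm_num) (by linarith))
  set s : ℝ := w + Real.log ((t : ℝ) + 2) with hs
  have hs1 : 1 / 2 ≤ s := by linarith
  have hD : 1 ≤ 2 * C0 * s := by nlinarith
  have h5 := h (Tame w t) (2 * C0 * s) C k hD hC (fun V _ G hG hT => by
    rcases hT with hT | hT
    · refine ST.H626.EdgeIso.mono' (h3 w t V G hG hT).1 ?_
      rw [← hs]
      nlinarith
    · refine ST.H626.EdgeIso.mono' (h1 V G hG hT).1 ?_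
      nlinarith) V G H E hH hle hG
  refine h5.mono ?_
  have h6 : 2 * C0 * s + ((k : ℝ) + 1) * C ≤ 2 * C0 * (s + ((k : ℝ) + 1) * C) := by
    have h7 : 0 ≤ ((k : ℝ) + 1) * C := by positivity
    nlinarith
  calc A * C * (2 * C0 * s + ((k : ℝ) + 1) * C)
      ≤ A * C * (2 * C0 * (s + ((k : ℝ) + 1) * C)) :=
        mul_le_mul_of_nonneg_left h6 (by positivity)
    _ = _ := by ring

end H45

end Vale.Agent.P235.Hub
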