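import Vale.Agent.P235.Hub.H45.ExitAbs
import Vale.Agent.P235.ST.H945.All6

/-!
P235, line HUB (helper15), row [EXIT] (helper45): the class version of `HubSum`, and the rounds in
which hub sums and all the operations `AllOps` are mixed.
-/

namespace Vale.Agent.P235.Hub

open Vale.Agent.P235

/-- A piece: a graph of the class `P`, or a connected graph of the class `Q` with at most `k` hubs
such that `E` contains only pairs with a hub. -/
def PieceOf (P Q : ∀ V : Type, SimpleGraph V → Prop) (k : ℕ) {V : Type} (G : SimpleGraph V)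
    (E : V → V → Prop) : Prop :=
  P V G ∨ G.Connected ∧ Q V G ∧ ∃ A : Set V, A.ncard ≤ k ∧ ∀ u v, E u v → u ∈ A ∨ v ∈ A

/-- Graphs built by gluing pieces one after another, each one along an edge, to an edge allowed by
one of the earlier pieces. -/
inductive HubSumOf (P Q : ∀ V : Type, SimpleGraph V → Prop) (k : ℕ) :
    ∀ {V : Type}, SimpleGraph V → (V → V → Prop) → Prop
  | base {V : Type} {G : SimpleGraph V} {E : V → V → Prop} :
      PieceOf P Q k G E → HubSumOf P Q k G E
  | glue {V : Type} {G : SimpleGraph V} {A B : Set V} {s t : V} {hs : s ∈ A} {ht : t ∈ A}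
      {EA : A → A → Prop} {EB : B → B → Prop} {E : V → V → Prop} :
      A ∪ B = Set.univ → A ∩ B = {s, t} → (∀ a b, a ∉ B → b ∉ A → ¬ G.Adj a b) → G.Adj s t →
      HubSumOf P Q k (G.induce A) EA → EA ⟨s, hs⟩ ⟨t, ht⟩ → PieceOf P Q k (G.induce B) EB →
      (∀ u v, E u v → (∃ (hu : u ∈ A) (hv : v ∈ A), EA ⟨u, hu⟩ ⟨v, hv⟩) ∨
        ∃ (hu : u ∈ B) (hv : v ∈ B), EB ⟨u, hu⟩ ⟨v, hv⟩) → HubSumOf P Q k G E

/-- `j` rounds. Round `0`: the class of `GnrsOperations`. Round `j + 1`: the graphs obtained by `w`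
rounds of `AllOps` from the spanning subgraphs of hub sums, with `w` hubs, of graphs of `Tame w w`
and graphs of round `j`. -/
def Nest (w : ℕ) : ℕ → ∀ V : Type, SimpleGraph V → Prop
  | 0 => fun _ G => AllOps (fun V G => NearAnySurf w w V G ∨ TreewidthLE G w ∨
      EdgeSumOf (ST.H945.PlaneTw w w w) G ∨ ST.H742.PlaneVortex w V G ∨ DistortionLE G w) w w G
  | j + 1 => fun _ G => AllOps (fun V G => ∃ (H : SimpleGraph V) (E : V → V → Prop), G ≤ H ∧
      HubSumOf (Tame w w) (Nest w j) w H E) w w G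

namespace H45

theorem hubSum_of {P Q : ∀ V : Type, SimpleGraph V → Prop} {k : ℕ} {C : ℝ}
    (hQ : ∀ (V : Type) [Finite V] (G : SimpleGraph V), G.Connected → Q V G → DistortionLE G C) :
    ∀ {V : Type} {G : SimpleGraph V} {E : V → V → Prop}, HubSumOf P Q k G E → Finite V →
      HubSum P C k G E := by
  have hp : ∀ {V : Type} {G : SimpleGraph V} {E : V → V → Prop}, Finite V → PieceOf P Q k G E →
      Hub.Piece P C k G E := by
    rintro V G E hf (h | ⟨hc, hq, hA⟩)
    · exact Or.inl h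
    · exact Or.inr ⟨hc, hQ V G hc hq, hA⟩
  intro V G E h
  induction h with
  | base h => exact fun hf => HubSum.base (hp hf h)
  | glue h1 h2 h3 h4 _ h5 h6 h7 ih =>
    intro hf
    exact HubSum.glue h1 h2 h3 h4 (ih inferInstance) h5 (hp inferInstance h6) h7

/-- **Rounds.** -/
theorem nest_bounded (hM : MainStmt) (w j : ℕ) : ∃ K : ℝ, ∀ (V : Type) [Finite V]
    (G : SimpleGraph V), G.Connected → Nest w j V G → DistortionLE G K := by
  obtain ⟨A, -, hA⟩ := exit_tame hM
  induction j with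
  | zero =>
    obtain ⟨C, -, -, -, -, -, -, h6⟩ := ST.H945.all6
    obtain ⟨K, hK⟩ := h6 w w
    exact ⟨K, fun V _ G hG h => hK V G hG h⟩
  | succ j ih =>
    obtain ⟨K, hK⟩ := ih
    obtain ⟨K', hK'⟩ := ST.H690.allOps_bounded
      (A * max K 1 * (w + Real.log ((w : ℝ) + 2) + ((w : ℝ) + 1) * max K 1)) w w
    refine ⟨K', fun V _ G hG h => hK' _ (fun V _ G hG hP => ?_) V G hG h⟩
    obtain ⟨H, E, hle, hH⟩ := hP
    exact hA w w w (max K 1) (le_max_right _ _) V G H E
      (hubSum_of (fun V _ G hc hq => (hK V G hc hq).mono (le_max_left _ _)) hH inferInstance)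
      hle hG

end H45

end Vale.Agent.P235.Hub
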